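import Vale.Agent.P088.R2.H404.P5f
import Vale.Agent.P088.R2.H437.P2
import Vale.Agent.P088.R2.H437.EXTrow
import Vale.Agent.P088.R2.H269.X.X15
import Vale.Agent.P088.R2.H238.S3.Norm
import Vale.Agent.P088.R2.H238.S3.P3
import Vale.Agent.P088.R2.H673.P4.PM
import Vale.Agent.P088.R2.H901.Inv
import Vale.Agent.P088.R2.H901.Inp
import Vale.Agent.P088.R2.H349.Hyp

/-!
# P088, stage 3: the local theorem from the weighted estimate
-/

namespace Vale.Agent.P088.R2.H794.F3

open Vale.Agent.P088.HY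

/-- The local two-metric theorem of stage 3 from the weighted estimate. -/
theorem core3 (hE : R2.H269.RowEST) : T3.RowCORE3 :=
  R2.H238.S3.Nm.rowNORM (T4.core3n rowINV rowINP (R2.H269.rowSOLW rowHYP _root_.Vale.Agent.P088.HY.H437.Kel.rowEXT hE)
    (R2.H238.S3.P3.rowP3 (H437.Kel.rowP2 rowHYP)) (S3.rowP4 rowINV (H437.Kel.rowP2 rowHYP)))

end Vale.Agent.P088.R2.H794.F3
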