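import Vale.Agent.P088.R2.H794.F3.Res
import Vale.Agent.P088.R2.H561.S4.EstVh

/-!
# P088, stage 3: the weighted estimate from the two-slot estimate
-/

namespace Vale.Agent.P088.R2.H794.F3

theorem est3 (hE : S4.RowESTh) : R2.H269.RowEST := S4.rowEST_h hE

end Vale.Agent.P088.R2.H794.F3
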