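import Vale.Agent.P088.R2.H794.F3.Fin
import Vale.Agent.P088.R2.H794.F3.Close3

/-!
# P088, stage 3: the hand-in from the weighted estimate
-/

open Manifold Set Vale.Agent.P088.B Vale.Agent.P088.B2
open Vale.Agent.P088.B8 (GaugeBy)
open scoped ContDiff Matrix

set_option linter.all false

namespace Vale.Agent.P088.R2.H794.F3

universe u

theorem final3 (hE : R2.H269.RowEST) {n N : ℕ} [NeZero n] (hn : 3 ≤ n) (hN : 1 ≤ N) :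
    -- one manifold
    (∀ {M : Type u} [TopologicalSpace M] [ChartedSpace (EuclideanHalfSpace n) M]
      [IsManifold (𝓡∂ n) ∞ M] [T2Space M] [CompactSpace M] [ConnectedSpace M]
      (Z : At n M) (_ : Z = at_ n M) (Γ O : Set M) (_ : IsOpen O) (_ : Γ = O ∩ bd Z)
      (_ : Γ.Nonempty) (P Q : Pair Z N) (_ : B.SameData Γ P Q),
      -- `A₁ = A₂ = 0`: the anisotropic Calderón problem with data on `Γ`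
      (P.A = 0 → Q.A = 0 → Related Γ P Q) ∧
      -- connections which are gauge equivalent to the trivial one
      ((∃ U, GaugeBy U univ Γ 0 P.A Z) → Γ = bd Z ∨ (∃ U, GaugeBy U univ Γ 0 Q.A Z) →
        Related Γ P Q) ∧
      -- parallel sections: the metrics are isometric
      (∀ e, Par P e → e ≠ 0 → Γ = bd Z ∨ (∃ e', Par Q e' ∧ ∀ x ∈ Γ, e' x = e x) →
        ∀ P₀ Q₀ : Pair Z 1, P₀.g = P.g → P₀.A = 0 → Q₀.g = Q.g → Q₀.A = 0 →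
          Related Γ P₀ Q₀)) ∧
    -- two manifolds which share a boundary patch
    (∀ {M₁ M₂ : Type u} [TopologicalSpace M₁] [ChartedSpace (EuclideanHalfSpace n) M₁]
      [IsManifold (𝓡∂ n) ∞ M₁] [T2Space M₁] [CompactSpace M₁] [ConnectedSpace M₁]
      [TopologicalSpace M₂] [ChartedSpace (EuclideanHalfSpace n) M₂]
      [IsManifold (𝓡∂ n) ∞ M₂] [T2Space M₂] [CompactSpace M₂] [ConnectedSpace M₂]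
      (Z₁ : At n M₁) (_ : Z₁ = at_ n M₁) (Z₂ : At n M₂) (_ : Z₂ = at_ n M₂)
      (Γ₁ O₁ : Set M₁) (_ : IsOpen O₁) (_ : Γ₁ = O₁ ∩ bd Z₁) (_ : Γ₁.Nonempty)
      (Γ₂ O₂ : Set M₂) (_ : IsOpen O₂) (_ : Γ₂ = O₂ ∩ bd Z₂) (ψ : M₂ → M₁)
      (_ : Iden N Z₁ Z₂ Γ₁ Γ₂ ψ) (P : Pair Z₁ N) (Q : Pair Z₂ N)
      (_ : SameData₂ Γ₁ Γ₂ ψ P Q),
      (P.A = 0 → Q.A = 0 → UniqueRel₂ Γ₁ Γ₂ ψ P Q) ∧
      ((∃ U, GaugeBy U univ Γ₁ 0 P.A Z₁) →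
        (Γ₁ = bd Z₁ ∧ Γ₂ = bd Z₂) ∨ (∃ U, GaugeBy U univ Γ₂ 0 Q.A Z₂) →
        UniqueRel₂ Γ₁ Γ₂ ψ P Q) ∧
      (∀ e, Par P e → e ≠ 0 →
        (Γ₁ = bd Z₁ ∧ Γ₂ = bd Z₂) ∨ (∃ e', Par Q e' ∧ ∀ x ∈ Γ₂, e' x = e (ψ x)) →
        ∀ (P₀ : Pair Z₁ 1) (Q₀ : Pair Z₂ 1), P₀.g = P.g → P₀.A = 0 → Q₀.g = Q.g → Q₀.A = 0 →
          UniqueRel₂ Γ₁ Γ₂ ψ P₀ Q₀)) := by
  have hC := core3 hE
  have triv : ∀ {M : Type u} [TopologicalSpace M] [ChartedSpace (EuclideanHalfSpace n) M]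
      [IsManifold (𝓡∂ n) ∞ M] (Γ : Set M) (A : M → Fin n → Matrix (Fin N) (Fin N) ℂ), A = 0 →
      ∃ U, GaugeBy U univ Γ 0 A (at_ n M) := by
    intro M _ _ _ Γ A hA
    refine ⟨fun _ => 1, fun a b => contMDiffOn_const, fun x => by simp, fun x _ => rfl,
      fun x _ j => ?_⟩
    have h : dM (fun y => (fun _ : M => (1 : Matrix (Fin N) (Fin N) ℂ)) (pt (at_ n M) x y))
        ((at_ n M).ch x x) j = 0 := by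
      ext a b
      simp [dM, dj]
    rw [h, hA]
    simp
  have H2 : ∀ {M₁ M₂ : Type u} [TopologicalSpace M₁] [ChartedSpace (EuclideanHalfSpace n) M₁]
      [IsManifold (𝓡∂ n) ∞ M₁] [T2Space M₁] [CompactSpace M₁] [ConnectedSpace M₁]
      [TopologicalSpace M₂] [ChartedSpace (EuclideanHalfSpace n) M₂]
      [IsManifold (𝓡∂ n) ∞ M₂] [T2Space M₂] [CompactSpace M₂] [ConnectedSpace M₂]
      (Z₁ : At n M₁) (_ : Z₁ = at_ n M₁) (Z₂ : At n M₂) (_ : Z₂ = at_ n M₂)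
      (Γ₁ O₁ : Set M₁) (_ : IsOpen O₁) (_ : Γ₁ = O₁ ∩ bd Z₁) (_ : Γ₁.Nonempty)
      (Γ₂ O₂ : Set M₂) (_ : IsOpen O₂) (_ : Γ₂ = O₂ ∩ bd Z₂) (ψ : M₂ → M₁)
      (_ : Iden N Z₁ Z₂ Γ₁ Γ₂ ψ) (P : Pair Z₁ N) (Q : Pair Z₂ N)
      (_ : SameData₂ Γ₁ Γ₂ ψ P Q),
      (P.A = 0 → Q.A = 0 → UniqueRel₂ Γ₁ Γ₂ ψ P Q) ∧
      ((∃ U, GaugeBy U univ Γ₁ 0 P.A Z₁) →
        (Γ₁ = bd Z₁ ∧ Γ₂ = bd Z₂) ∨ (∃ U, GaugeBy U univ Γ₂ 0 Q.A Z₂) →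
        UniqueRel₂ Γ₁ Γ₂ ψ P Q) ∧
      (∀ e, Par P e → e ≠ 0 →
        (Γ₁ = bd Z₁ ∧ Γ₂ = bd Z₂) ∨ (∃ e', Par Q e' ∧ ∀ x ∈ Γ₂, e' x = e (ψ x)) →
        ∀ (P₀ : Pair Z₁ 1) (Q₀ : Pair Z₂ 1), P₀.g = P.g → P₀.A = 0 → Q₀.g = Q.g → Q₀.A = 0 →
          UniqueRel₂ Γ₁ Γ₂ ψ P₀ Q₀) := by
    intro M₁ M₂ _ _ _ _ _ _ _ _ _ _ _ _ Z₁ hZ₁ Z₂ hZ₂ Γ₁ O₁ hO₁ hΓ₁ hne Γ₂ O₂ hO₂ hΓ₂ ψ hψ P Q hd
    obtain ⟨h1, h2⟩ := two hC hn hN Z₁ hZ₁ Z₂ hZ₂ Γ₁ O₁ hO₁ hΓ₁ hne Γ₂ O₂ hO₂ hΓ₂ ψ hψ P Q hd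
    subst hZ₁ hZ₂
    exact ⟨fun hP hQ => h2 (triv Γ₁ _ hP) (Or.inl (triv Γ₂ _ hQ)), fun hU hU' => h2 hU hU'.symm,
      fun e he h0 h P₀ Q₀ a1 a2 a3 a4 => h1 P₀ Q₀ a1 a2 a3 a4 e he h0 h.symm⟩
  refine ⟨?_, H2⟩
  intro M _ _ _ _ _ _ Z hZ Γ O hO hΓ hne P Q hd
  obtain ⟨h1, h2, h3⟩ := H2 Z hZ Z hZ Γ O hO hΓ hne Γ O hO hΓ id (iden_id Γ) P Q (sameData_id hd)
  exact ⟨fun hP hQ => related_of_uniqueRel (h1 hP hQ),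
    fun hU hU' => related_of_uniqueRel (h2 hU (hU'.imp_left fun h => ⟨h, h⟩)),
    fun e he h0 h P₀ Q₀ a1 a2 a3 a4 =>
      related_of_uniqueRel (h3 e he h0 (h.imp_left fun h => ⟨h, h⟩) P₀ Q₀ a1 a2 a3 a4)⟩

end Vale.Agent.P088.R2.H794.F3
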